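import Vale.Agent.P219.V.Stmt
import Vale.Agent.P219.G.Final

/-!
# Bounded sets have compact closure
-/

namespace Vale.Agent.P219

open scoped ContDiff Topology RealInnerProductSpace ENNReal Manifold
open MeasureTheory Set Filter Vale.Agent.P255

section

variable {E : Type*} [NormedAddCommGroup E] [InnerProductSpace ℝ E] [FiniteDimensional ℝ E]
  {G : E → Bil E} {L : E → E → E}

theorem Pack.rr_le_len (hP : Pack G L) {c : ℝ → E} (hc : ContinuousOn c (Icc 0 1))
    (hd : ∀ t ∈ Ioo (0 : ℝ) 1, ContDiffAt ℝ 1 c t) {R : ℝ} (hR : 0 ≤ R)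
    (h : ∫⁻ t in Ioo (0 : ℝ) 1, ENNReal.ofReal √(G (c t) (deriv c t) (deriv c t)) ≤
      ENNReal.ofReal R) : rr G L (c 0) (c 1) ≤ R := by
  set x := c 0 with hx
  set a := L x (c 1) with ha
  set φ : ℝ → ℝ := fun t => √(G (c t) (deriv c t) (deriv c t)) with hφ
  have hB := posB_of_loc hP.loc x
  have hL : Differentiable ℝ (L x) := (chg_smooth hP x).differentiable (by simp)
  have h1 : ContinuousOn φ (Ioo 0 1) := fun t ht => by
    have c1 := (hd t ht).continuousAt
    have c2 : ContinuousAt (deriv c) t := ((hd t ht).derivWithin (m := 0) le_rfl).continuousAt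
    exact ((((norm_contG hP.loc).continuousAt.comp c1).clm_apply c2).clm_apply
      c2).sqrt.continuousWithinAt
  have h0 : ∀ t, 0 ≤ φ t := fun t => Real.sqrt_nonneg _
  have h2 : IntegrableOn φ (Ioo 0 1) :=
    ⟨h1.aestronglyMeasurable measurableSet_Ioo,
      (hasFiniteIntegral_iff_ofReal (Eventually.of_forall h0)).2
        (h.trans_lt ENNReal.ofReal_lt_top)⟩
  have h3 : ∫ t in Ioo (0 : ℝ) 1, φ t ≤ R := by
    rw [← ofReal_integral_eq_lintegral_ofReal h2 (Eventually.of_forall h0)] at h
    exact (ENNReal.ofReal_le_ofReal_iff hR).1 h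
  have r0 := rr_nonneg G L x (c 1)
  have hr : G x a a = rr G L x (c 1) ^ 2 := (hP.rr_sq x (c 1)).symm
  have h4 := intervalIntegral.sub_le_integral_of_hasDeriv_right_of_le zero_le_one
    (g := fun s => G x a (L x (c s)))
    (g' := fun s => G x a (fderiv ℝ (L x) (c s) (deriv c s)))
    (φ := fun s => rr G L x (c 1) * φ s)
    ((G x a).continuous.comp_continuousOn (hL.continuous.comp_continuousOn hc))
    (fun t ht => ((G x a).hasFDerivAt.comp_hasDerivAt t ((hL _).hasFDerivAt.comp_hasDerivAt t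
      ((hd t ht).differentiableAt one_ne_zero).hasDerivAt)).hasDerivWithinAt)
    (((integrableOn_Icc_iff_integrableOn_Ioo).2 h2).const_mul _)
    (fun t _ => by
      have h5 := hB.sq_le a (fderiv ℝ (L x) (c t) (deriv c t))
      have h6 := hP.contr x (c t) (deriv c t)
      have h7 : φ t ^ 2 = G (c t) (deriv c t) (deriv c t) :=
        Real.sq_sqrt ((posB_of_loc hP.loc _).nonneg _)
      refine (abs_le_of_sq_le_sq' ?_ (mul_nonneg r0 (h0 t))).2
      rw [mul_pow, h7, ← hr]
      exact h5.trans (mul_le_mul_of_nonneg_left h6 (hB.nonneg a)))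
  rw [intervalIntegral.integral_const_mul, intervalIntegral.integral_of_le zero_le_one,
    integral_Ioc_eq_integral_Ioo, ← hx, hP.self, map_zero, sub_zero, ← ha, hr] at h4
  rcases r0.eq_or_lt with h8 | h8
  · rwa [← h8]
  · have h9 := h4.trans (mul_le_mul_of_nonneg_left h3 r0)
    nlinarith

end

variable {n : ℕ} {M : Type*} [TopologicalSpace M] [ChartedSpace (Euc n) M]
  [IsManifold 𝓘(ℝ, Euc n) ∞ M] {g : Metric (Euc n) M} {φ : Euc n → M} {G : Euc n → Bil (Euc n)}
  {L : Euc n → Euc n → Euc n}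

theorem GChart.rr_le (h : GChart g φ G) (hP : Pack G L) {x y : M} {R : ℝ} (hR : 0 ≤ R)
    (hxy : St.rdist g x y < ENNReal.ofReal R) :
    rr G L (Function.invFun φ x) (Function.invFun φ y) ≤ R := by
  simp only [St.rdist, iInf_lt_iff] at hxy
  obtain ⟨γ, ⟨h1, rfl, rfl⟩, h2⟩ := hxy
  have e0 : ∀ z, φ (Function.invFun φ z) = z := Function.rightInverse_invFun h.homeo.surjective
  have ci : Continuous (Function.invFun φ) := by
    have e : Function.invFun φ = h.homeo.homeomorph.symm := funext fun z =>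
      h.homeo.injective ((e0 z).trans (h.homeo.homeomorph.apply_symm_apply z).symm)
    rw [e]
    exact h.homeo.homeomorph.symm.continuous
  have hd : ∀ t ∈ Ioo (0 : ℝ) 1, ContDiffAt ℝ 1 (Function.invFun φ ∘ γ) t := fun t ht => by
    have h3 := h1.contMDiffAt (Icc_mem_nhds ht.1 ht.2)
    rw [contMDiffAt_iff_target, contMDiffAt_iff_contDiffAt] at h3
    have he := chart_mem_atlas (Euc n) (γ t)
    have hs := mem_chart_source (Euc n) (γ t)
    have h4 := h.symm_smooth he (v := Function.invFun φ (γ t)) (by rw [e0]; exact hs)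
    rw [e0] at h4
    refine ((h4.of_le (by exact_mod_cast le_top)).comp t h3.2).congr_of_eventuallyEq ?_
    filter_upwards [h3.1.preimage_mem_nhds (chart_source_mem_nhds (Euc n) (γ t))] with s hs'
    simp only [Function.comp_apply, extChartAt_coe, modelWithCornersSelf_coe, id_eq]
    rw [(chartAt (Euc n) (γ t)).left_inv hs']
  refine hP.rr_le_len (c := Function.invFun φ ∘ γ) (ci.comp_continuousOn h1.continuousOn) hd hR
    (le_trans (le_of_eq ?_) h2.le)
  refine setLIntegral_congr_fun measurableSet_Ioo fun t ht => ?_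
  have he := chart_mem_atlas (Euc n) (γ t)
  have hs : φ ((Function.invFun φ ∘ γ) t) ∈ (chartAt (Euc n) (γ t)).source := by
    rw [Function.comp_apply, e0]
    exact mem_chart_source (Euc n) (γ t)
  have h5 := fderiv_comp t ((h.smooth _ he _ hs).differentiableAt (by simp))
    ((hd t ht).differentiableAt one_ne_zero)
  have e1 : (chartAt (Euc n) (γ t) ∘ φ) ∘ Function.invFun φ ∘ γ = chartAt (Euc n) (γ t) ∘ γ :=
    funext fun s => by simp only [Function.comp_apply, e0]
  rw [e1] at h5
  beta_reduce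
  rw [h.metric _ he _ hs, St.pull, h5]
  simp only [Function.comp_apply, e0, ContinuousLinearMap.comp_apply, fderiv_apply_one_eq_deriv]

theorem isDom_compact [T2Space M] [SimplyConnectedSpace M] {κ : ℝ} (hκ : κ ≤ 0) (hc : Complete g)
    (hK : St.SecLe g κ) {Ω : Set M} (hΩ : St.IsDom g Ω) : IsCompact (closure Ω) := by
  obtain ⟨φ, G, h⟩ := exists_gchart hc (secLe_npc hκ hK)
  obtain ⟨L, hP⟩ := (h.chk hc hκ hK).exists_packK
  rcases Ω.eq_empty_or_nonempty with rfl | ⟨x, hx⟩
  · simp
  obtain ⟨R, hR⟩ := hΩ.bdd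
  obtain ⟨K', h1, -, h2⟩ := hP.toPack.nbhd (isCompact_singleton (x := Function.invFun φ x))
    (|R| + 1)
  have h3 := h1.image h.homeo.continuous
  refine h3.of_isClosed_subset isClosed_closure (closure_minimal (fun y hy => ?_) h3.isClosed)
  refine ⟨Function.invFun φ y, h2 _ rfl _ ?_, Function.rightInverse_invFun h.homeo.surjective y⟩
  rw [hP.toPack.rr_symm]
  refine h.rr_le hP.toPack (by positivity) ((hR x hx y hy).trans_lt ?_)
  exact (ENNReal.ofReal_lt_ofReal_iff (by positivity)).2 (by linarith [le_abs_self R])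

theorem profile_eq (m : ℕ) (κ : ℝ) {r : ℝ} (hr : 0 ≤ r) :
    St.profile (m + 1) κ (ENNReal.ofReal (St.ballVol (m + 1) κ r)).toReal =
      St.ballArea (m + 1) κ r := by
  have eo : St.omega (m + 1) = om (Euc (m + 1)) := by
    rw [St.omega, om, ball_zero_eq]
  have eV : St.ballVol (m + 1) κ = Vm (om (Euc (m + 1))) m (√(-κ)) := funext fun r => by
    rw [St.ballVol, Vm, eo, Nat.add_sub_cancel, Nat.cast_succ]
  have eA : St.ballArea (m + 1) κ = Am (om (Euc (m + 1))) m (√(-κ)) := funext fun r => by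
    rw [St.ballArea, Am, eo, Nat.add_sub_cancel, Nat.cast_succ]
  have ho := om_pos (E := Euc (m + 1))
  have h0 : 0 ≤ Vm (om (Euc (m + 1))) m (√(-κ)) r := by
    rcases hr.eq_or_lt with h | h
    · rw [← h, Vm_zero]
    · exact (Vm_pos ho h).le
  rw [St.profile, eV, eA, ENNReal.toReal_ofReal h0]
  exact Ipr_Vm ho hr

end Vale.Agent.P219
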