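import Vale.Agent.P219.G.Stmt

/-!
Definitions used by the statement with the Riemannian distance and the model profile.
-/

namespace Vale.Agent.P219.St

open scoped ContDiff Manifold ENNReal
open Vale.Agent.P255 MeasureTheory Set

variable {E M : Type*} [NormedAddCommGroup E] [NormedSpace ℝ E] [TopologicalSpace M]
  [ChartedSpace E M]

/-- The length of the curve `γ` on `[0, 1]`. -/
noncomputable def len (g : Metric E M) (γ : ℝ → M) : ℝ≥0∞ :=
  ∫⁻ t in Ioo (0 : ℝ) 1, ENNReal.ofReal √(pull g γ t 1 1)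

/-- The Riemannian distance: the infimum of the lengths of `C¹` curves from `x` to `y`. -/
noncomputable def rdist (g : Metric E M) (x y : M) : ℝ≥0∞ :=
  ⨅ (γ : ℝ → M) (_ : ContMDiffOn 𝓘(ℝ, ℝ) 𝓘(ℝ, E) 1 γ (Icc 0 1) ∧ γ 0 = x ∧ γ 1 = y), len g γ

/-- A domain: a bounded open set with smooth boundary. -/
structure IsDom (g : Metric E M) (Ω : Set M) : Prop where
  isOpen : IsOpen Ω
  bdd : ∃ R : ℝ, ∀ x ∈ Ω, ∀ y ∈ Ω, rdist g x y ≤ ENNReal.ofReal R
  bdry : ∀ p ∈ frontier Ω, ∃ (U : Set M) (f : M → ℝ), IsOpen U ∧ p ∈ U ∧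
    ContMDiffOn 𝓘(ℝ, E) 𝓘(ℝ, ℝ) ∞ f U ∧ mfderiv 𝓘(ℝ, E) 𝓘(ℝ, ℝ) f p ≠ 0 ∧
      Ω ∩ U = {x ∈ U | f x < 0}

/-- The model isoperimetric profile: the boundary area of the model ball of volume `V`. -/
noncomputable def profile (n : ℕ) (κ V : ℝ) : ℝ :=
  ballArea n κ (Function.invFunOn (ballVol n κ) (Ici 0) V)

end Vale.Agent.P219.St
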